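import Vale.Agent.P057T.Sr.Defs
import Vale.Agent.P057T.Eq.Summ
import Vale.Agent.P057T.Eq.Det

/-! Row `BIAS`: Poisson summation over the top variables. -/

set_option linter.all false

open MvPolynomial Finset Matrix
open scoped Real

namespace Vale.Agent.P057T.Sr

open Vale.Agent.P057T.Eq Vale.Agent.P057T.Eq.Br Vale.Agent.P057T.Cp Vale.Agent.P057T.Mt
open Vale.Agent.P267.H775 Vale.Agent.P057T.Poi

noncomputable section

namespace BiasP

variable {ι Γ : Type} [Fintype ι] [DecidableEq ι] [Fintype Γ] [DecidableEq Γ]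

theorem te_eq {M : MT ι Γ} {s : ℕ} (hG : M.G.Ok s) {S : Finset ι} (hB : M.G.Bk S)
    (hσ : ∀ a, 0 < M.sg a) : te M S = th ((mM M.G M.sg S)⁻¹)ᵀ 0 := by
  rw [th_dual (mM_det hG hB hσ)]
  show (M.G.mn M.sg S)⁻¹ * ∑' z : Lat S, M.G.nu ⟨S, fun _ => 0, M.sg⟩ z.1 * 1 = _
  rw [mn_eq hG hB hσ, inv_inv, ← (latE S).tsum_eq, th_zero]
  congr 1
  refine tsum_congr fun k => ?_
  rw [mul_one, nu_eq (T := ⟨S, fun _ => 0, M.sg⟩) hG hB]
  congr 1
  funext b
  simp [GT.cq, MT.G, cz, latE_coe, ex0_coe]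

theorem ph_eq (M : MT ι Γ) {S : Finset ι} (k : Lat S) :
    0 + ∑ b ∈ S, C ((0 : ι → ℝ) b - k.1 b) * M.G.cq M.T b = ph M k.1 := by
  rw [zero_add, ph, ← sum_subset (subset_univ S) fun b _ hb => by rw [k.2 b hb]; simp]
  refine sum_congr rfl fun b _ => ?_
  show C (0 - (k.1 b : ℝ)) * (0 - ∑ a, C (M.B b a) * M.p a) = _
  rw [zero_sub, zero_sub, map_neg, neg_mul_neg]

theorem key {α : Type} [DecidableEq α] {o : α} {g q : α → ℝ} {e : α → ℂ} {A : ℂ} {m a δ T Θ τ : ℝ}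
    (hs : HasSum (fun k => ((m * g k : ℝ) : ℂ) * e k) A) (hg : HasSum g Θ) (g0 : ∀ k, 0 ≤ g k)
    (g1 : ∀ k, g k ≤ 1) (m0 : 0 ≤ m) (δ0 : 0 ≤ δ) (he : ∀ k, ‖e k‖ ≤ a)
    (hb : ∀ k, k ≠ o → q k ≤ T → ‖e k‖ ≤ δ) (ht : ∑' k, (if T ≤ q k then g k else 0) ≤ τ) :
    ‖A‖ ≤ m * (a + δ * Θ + a * τ) := by
  have a0 : 0 ≤ a := (norm_nonneg _).trans (he o)
  have s1 : Summable fun k => if T ≤ q k then g k else 0 :=
    Summable.of_nonneg_of_le (fun k => by split_ifs; exacts [g0 k, le_rfl])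
      (fun k => by split_ifs; exacts [le_rfl, g0 k]) hg.summable
  have h1 := (((hasSum_ite_eq o a).add (hg.mul_left δ)).add (s1.hasSum.mul_left a)).mul_left m
  refine (hs.norm_le_of_bounded h1 fun k => ?_).trans ?_
  · rw [norm_mul, Complex.norm_real, Real.norm_of_nonneg (mul_nonneg m0 (g0 k)), mul_assoc]
    refine mul_le_mul_of_nonneg_left ?_ m0
    have b1 := mul_nonneg δ0 (g0 k)
    have b2 := mul_nonneg a0 (g0 k)
    have b3 := mul_le_mul_of_nonneg_left (he k) (g0 k)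
    by_cases h : k = o
    · rw [if_pos h]
      have b4 := mul_le_mul_of_nonneg_right (g1 k) a0
      split_ifs <;> linarith
    · rw [if_neg h]
      by_cases h2 : T ≤ q k
      · rw [if_pos h2]
        linarith
      · rw [if_neg h2]
        have := mul_le_mul_of_nonneg_left (hb k h (not_le.1 h2).le) (g0 k)
        linarith
  · exact mul_le_mul_of_nonneg_left (by linarith [mul_le_mul_of_nonneg_left ht a0]) m0

end BiasP

open BiasP in
theorem bias (hT : TOK) (hP : POIS) : BIAS := by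
  intro ι Γ _ _ _ _ M W s d T hM hWU hW hp hte d0 d1 hn hr hT8
  obtain ⟨⟨s0, P, P0, hG, hA⟩, -⟩ := hT ι Γ M hM
  have hB : M.G.Bk (M.U \ W) := bk_sdiff hM.bk hW
  have e0 : M.T.U \ (M.U \ W) = W := Finset.sdiff_sdiff_eq_self hWU
  obtain ⟨hA', hs⟩ := hP s0 ι M.G M.T P (M.U \ W) 0 0 hG P0 hA sdiff_subset hB
    (fun a ha => ⟨by simp [MT.G], disjoint_sdiff.mono_left (hp a ha)⟩) (by simp)
  rw [e0] at hA' hs
  simp only [ph_eq, sub_zero] at hs
  have e1 : (0 : MvPolynomial ι ℝ) + ∑ b ∈ M.U \ W, C ((0 : ι → ℝ) b) * X b = 0 := by simp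
  rw [e1, Sm_zero, ← (latE (M.U \ W)).hasSum_iff] at hs
  have hd := det_dual (mM_det hG hB hM.sg)
  rw [te_eq hG hB hM.sg] at hte
  set D := ((mM M.G M.sg (M.U \ W))⁻¹)ᵀ with hD
  have hq : ∀ k : ↥(M.U \ W) → ℤ,
      M.G.dq M.sg (M.U \ W) (cz (latE (M.U \ W) k).1) = qf D (0 + toR k) := fun k => by
    rw [dq_eq hG hB hM.sg]
    congr 1
    funext b
    simp [cz, latE_coe, ex0_coe]
  have m0 : 0 < M.G.mn M.sg (M.U \ W) := mn_pos hG hB hM.sg
  have w0 : 0 < M.G.mn M.sg W := mn_pos hG hW hM.sg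
  have e2 : M.mn = M.G.mn M.sg W * M.G.mn M.sg (M.U \ W) := by
    show M.G.dv M.U * ∏ a ∈ M.U, (M.sg a)⁻¹ = M.G.dv W * (∏ a ∈ W, (M.sg a)⁻¹) *
      (M.G.dv (M.U \ W) * ∏ a ∈ M.U \ W, (M.sg a)⁻¹)
    rw [(det0 s0 ι M.G hG).2.2.1 M.U W hM.bk hW hWU, ← prod_sdiff hWU]
    ring
  have e3 : M.nm = M.mn⁻¹ * M.G.ms M.T := by
    show M.mn⁻¹ * ∑' z : Lat M.T.U, M.G.nu M.T z.1 * 1 = _
    simp only [mul_one]
    rfl
  have e4 : (M.rs W).nm = (M.G.mn M.sg W)⁻¹ * M.G.ms (M.T.rs W) := by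
    show (M.G.mn M.sg W)⁻¹ * ∑' z : Lat W, M.G.nu (M.T.rs W) z.1 * 1 = _
    simp only [mul_one]
    rfl
  have e5 : ∀ Q, ‖(M.rs W).En fun z => ee (eval (cz z) Q)‖ =
      (M.G.mn M.sg W)⁻¹ * ‖M.G.Sm (M.T.rs W) Q‖ := fun Q => by
    show ‖(M.G.mn M.sg W)⁻¹ • ∑' z : Lat W, M.G.nu (M.T.rs W) z.1 • ee (eval (cz z.1) Q)‖ = _
    rw [norm_smul, Real.norm_of_nonneg (inv_pos.2 w0).le]
    simp only [Complex.real_smul]
    rfl
  by_contra hc
  have hb : ∀ k : ↥(M.U \ W) → ℤ, k ≠ 0 → qf D (0 + toR k) ≤ T →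
      ‖M.G.Sm (M.T.rs W) (ph M (latE (M.U \ W) k).1)‖ ≤ d / (4 * Real.exp s) * M.G.mn M.sg W := by
    intro k hk hq'
    by_contra h
    refine hc ⟨(latE (M.U \ W) k).1, (latE (M.U \ W) k).2, fun h0 => hk ?_, hq k ▸ hq', ?_⟩
    · funext b
      have := congrFun h0 b
      rwa [latE_coe, ex0_coe] at this
    · rw [e5, ← div_eq_inv_mul, le_div_iff₀ w0]
      exact (not_le.1 h).le
  have h1 := key (o := (0 : ↥(M.U \ W) → ℤ)) (g := fun k => gq D (0 + toR k))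
    (q := fun k => qf D (0 + toR k)) (e := fun k => M.G.Sm (M.T.rs W) (ph M (latE (M.U \ W) k).1))
    (m := M.G.mn M.sg (M.U \ W)) (A := (M.G.ms M.T : ℂ))
    (hs.congr_fun fun k => by
      show _ = ((M.G.mn M.sg (M.U \ W) * Real.exp (-π * M.G.dq M.sg (M.U \ W)
        (cz (latE (M.U \ W) k).1)) : ℝ) : ℂ) * _
      rw [hq]
      rfl)
    (summable_gq hd 0).hasSum (fun _ => (gq_pos _ _).le) (fun _ => gq_le_one _ _) m0.le
    (by positivity) (fun _ => norm_Sm_le hG P0 hA' _) hb (tail_le hd 0 T)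
  rw [Complex.norm_real, Real.norm_of_nonneg (ms_nonneg _)] at h1
  change _ ≤ _ * (_ + _ * th D 0 + _) at h1
  have t1 := one_le_th hd
  have x0 := Real.exp_pos s
  have s1 : 0 ≤ s := Real.one_le_exp_iff.1 (t1.trans hte)
  have c0 : (0 : ℝ) ≤ (M.U \ W).card := Nat.cast_nonneg _
  have T0 : 0 ≤ T := by
    have : Real.exp (s + (M.U \ W).card - T) ≤ 1 := by linarith [Real.exp_pos (s + (M.U \ W).card - T)]
    linarith [Real.exp_le_one_iff.1 this]
  have t2 : Real.exp (-(3 / 4 * π * T)) * 2 ^ Fintype.card ↥(M.U \ W) * th D 0 ≤ d / 8 := by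
    have a1 : Real.exp (-(3 / 4 * π * T)) ≤ Real.exp (-T) :=
      Real.exp_le_exp.2 (by nlinarith [Real.pi_gt_three])
    have a2 : (2 : ℝ) ^ Fintype.card ↥(M.U \ W) ≤ Real.exp ((M.U \ W).card) := by
      rw [Fintype.card_coe, ← mul_one ((M.U \ W).card : ℝ), Real.exp_nat_mul]
      exact pow_le_pow_left₀ (by norm_num) (by linarith [Real.add_one_le_exp 1]) _
    have a3 := mul_le_mul (mul_le_mul a1 a2 (by positivity) (Real.exp_pos _).le) hte
      (by linarith) (by positivity)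
    rw [← Real.exp_add, ← Real.exp_add, show -T + (M.U \ W).card + s = s + (M.U \ W).card - T by
      ring] at a3
    linarith
  have t3 : d / (4 * Real.exp s) * M.G.mn M.sg W * th D 0 ≤ d / 4 * M.G.mn M.sg W := by
    have : d / (4 * Real.exp s) * M.G.mn M.sg W * Real.exp s = d / 4 * M.G.mn M.sg W := by
      field_simp
    rw [← this]
    exact mul_le_mul_of_nonneg_left hte (by positivity)
  rw [e4, ← div_eq_inv_mul, div_le_iff₀ w0] at hr
  rw [e3, e2, ← div_eq_inv_mul, lt_div_iff₀ (mul_pos w0 m0)] at hn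
  have t4 := mul_le_mul hr t2 (by positivity) (by positivity)
  have t5 : (1 + d / 2) * M.G.mn M.sg W * (d / 8) ≤ d / 4 * M.G.mn M.sg W := by
    have : (1 + d / 2) * (d / 8) ≤ d / 4 := by nlinarith
    nlinarith
  have t6 := mul_le_mul_of_nonneg_left (add_le_add (add_le_add hr t3) (t4.trans t5)) m0.le
  nlinarith

end

end Vale.Agent.P057T.Sr
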