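import Vale.Agent.P057T.Mt.Seq

/-!
New windows over a regular multi-affine tower and their regularisation (`SADD`, `SREG`).
The old part `V` keeps `TH`; new variables are graded by the size of their colour.
Row statements are `Prop`s at the end of the file.
-/

open MvPolynomial Finset
open scoped Real

namespace Vale.Agent.P057T.Sr

open Vale.Agent.P057T.Eq Vale.Agent.P057T.Cp Vale.Agent.P057T.Mt

noncomputable section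

variable {ι Γ ι' : Type} [Fintype ι] [DecidableEq ι] [Fintype Γ] [DecidableEq Γ]
  [Fintype ι'] [DecidableEq ι']

/-- the integer point under an integer polynomial map -/
def pz (φ : ι → MvPolynomial ι' ℝ) (z : ι' → ℤ) : ι → ℤ := fun a => round (eval (cz z) (φ a))

/-- normalised theta series of the variables of `V` -/
def te (M : MT ι Γ) (V : Finset ι) : ℝ := ({ M with U := V, p := fun _ => 0 } : MT ι Γ).nm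

/-- the phase of the dual vector `k` -/
def ph (M : MT ι Γ) (k : ι → ℤ) : MvPolynomial ι ℝ :=
  ∑ b, C (k b : ℝ) * ∑ a, C (M.B b a) * M.p a

def sq (M : MT ι Γ) (z : ι → ℤ) : ℝ := ∑ a ∈ M.U, (eval (cz z) (M.sc a)) ^ 2

def lw (θ : ℕ → ℝ) (t : ℕ) (x : ℝ) : ℕ → ℝ := fun s => if s < t then θ s + x else θ s
def at1 (θ : ℕ → ℝ) (t : ℕ) (x : ℝ) : ℕ → ℝ := fun s => if s = t then θ s + x else θ s

/-- a tower, its old part, the scales of the levels, the weight unit -/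
structure SR (ι Γ : Type) where
  M : MT ι Γ
  V : Finset ι
  σ : ℕ → ℝ
  W0 : ℕ

namespace SR

variable (S : SR ι Γ)

def nw : Finset ι := S.M.U \ S.V
def bl (e : Finset Γ) : Finset ι := S.nw.filter fun a => S.M.col a = e
def lv (t : ℕ) : Finset ι := S.nw.filter fun a => (S.M.col a).card = t
def lo (t : ℕ) : Finset ι := S.V ∪ S.nw.filter fun a => (S.M.col a).card < t
def pot : ℕ := ∑ a ∈ S.nw, (2 ^ Fintype.card Γ + 1) ^ (S.M.col a).card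

/-- everything is old -/
def of (M : MT ι Γ) : SR ι Γ := ⟨M, M.U, fun _ => 1, univ.sup M.w + 1⟩

structure Ok : Prop where
  ok : S.M.Ok
  ne : S.V.Nonempty
  VU : S.V ⊆ S.M.U
  bk : S.M.G.Bk S.V
  cl : ∀ a ∈ S.V, (S.M.p a).vars ⊆ S.V
  W1 : 1 ≤ S.W0
  wo : ∀ a ∈ S.V, S.M.w a ≤ S.W0
  wn : ∀ a ∈ S.nw, S.M.w a = S.W0 * (Fintype.card Γ + 1) ^ (S.M.col a).card
  sg : ∀ a ∈ S.nw, S.M.sg a = S.σ (S.M.col a).card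
  s0 : ∀ t, 0 < S.σ t

structure Inv0 (k : ℕ) (θ : ℕ → ℝ) (W d : ℝ) : Prop where
  ok : S.Ok
  th : (S.M.rs S.V).TH k (Real.exp W) d
  d1 : d ≤ 1
  te : ∀ t, te S.M (S.lv t) ≤ Real.exp (θ t)

structure Inv (k : ℕ) (h : (ι → ℤ) → ℝ) (θ : ℕ → ℝ) (W d γ b : ℝ) : Prop where
  i0 : S.Inv0 k θ W d
  h0 : ∀ z, 0 ≤ h z ∧ h z ≤ 1
  b0 : 0 ≤ b ∧ b ≤ 1
  de : Real.exp (-γ) < S.M.En fun z => h z - b

/-- same active, old variables and colours -/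
def Sa (S' : SR ι Γ) : Prop := S'.M.U = S.M.U ∧ S'.V = S.V ∧ S'.M.col = S.M.col

/-- `j` is a pivot of its block -/
def Pv (j : ι) (β : ℝ) : Prop :=
  j ∈ S.nw ∧ 0 < β ∧ S.σ (S.M.col j).card * S.M.A j j = β⁻¹ ∧ ∀ c, c ≠ j → S.M.A j c = 0

/-- the top part of `F` is integer plus bounded in the lower top charts -/
def Rl (e : Finset Γ) (F : MvPolynomial ι ℝ) (H : ℝ) : Prop :=
  ∃ I b : MvPolynomial ι ℝ, IsZ I ∧ I.vars ⊆ S.lo e.card ∧ b.vars ⊆ S.lo e.card ∧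
    Ty S.M.col e I ∧ Ty S.M.col e b ∧ kp S.M.col e b = b ∧ l1 b ≤ H ∧
    kp S.M.col e F = I + aeval (S.M.dir univ).sc b

/-- pivot with a relation -/
def PR (j : ι) (β : ℝ) (n : ℕ) (H : ℝ) : Prop :=
  S.Pv j β ∧ S.Rl (S.M.col j) (C (n * β * S.σ (S.M.col j).card) * S.M.p j) H

end SR

/-- morphism; on the old part it is a window -/
structure Mv (S' : SR ι' Γ) (S : SR ι Γ) (φ : ι → MvPolynomial ι' ℝ) (j : ι → ι') (L : ℝ) :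
    Prop where
  z : ∀ a, IsZ (φ a)
  v : ∀ a ∈ S.M.U, (φ a).vars ⊆ S'.M.U
  ty : ∀ a ∈ S.M.U, Ty S'.M.col (S.M.col a) (φ a)
  ij : Set.InjOn j S.V
  im : S'.V = S.V.image j
  col : ∀ a ∈ S.V, S'.M.col (j a) = S.M.col a
  ch : ∀ a ∈ S.V, ∃ l c : ℝ, 1 ≤ l ∧ l ≤ Real.exp L ∧
    S'.M.sc (j a) = C l * (aeval φ (S.M.sc a) - C c)

/-- next state -/
def Nx (S : SR ι Γ) (h : (ι → ℤ) → ℝ) (L : ℝ) (S' : SR ι' Γ) (h' : (ι' → ℤ) → ℝ) : Prop :=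
  ∃ φ j, Mv S' S φ j L ∧ ∀ z, h' z ≤ h (pz φ z)

/-- the centred copies of the part `V`, narrowed -/
def cw (M : MT ι Γ) (V : Finset ι) (k : ℕ) (Λ : ℝ) :
    MT (CV M.col (Fin (k + 1))) (Γ × Fin (k + 1)) :=
  (((M.rs V).cpy (Fin (k + 1))).dir univ).wid fun _ => Λ

/-! ### Rows: algebra -/

/-- substitution, top parts, decomposition by colours -/
def TYS : Prop := ∀ (ι ι' Γ : Type) [Fintype ι] [DecidableEq ι] [Fintype ι'] [DecidableEq ι']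
  [Fintype Γ] [DecidableEq Γ] (col : ι → Finset Γ) (col' : ι' → Finset Γ) (e : Finset Γ)
  (F : MvPolynomial ι ℝ), Ty col e F →
    (∀ φ : ι → MvPolynomial ι' ℝ, (∀ a ∈ F.vars, Ty col' (col a) (φ a)) →
      Ty col' e (aeval φ F) ∧
      kp col' e (aeval φ F) = aeval (fun a => kp col' (col a) (φ a)) (kp col e F)) ∧
    Ty col e (kp col e F) ∧ (kp col e F).vars ⊆ F.vars ∧
    ∃ R : Finset Γ → MvPolynomial ι ℝ, (∀ e', Ty col e' (R e') ∧ (R e').vars ⊆ F.vars) ∧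
      ((∀ a ∈ F.vars, (col a).Nonempty) → ∃ y, R ∅ = C y) ∧
      F = kp col e F + ∑ e' ∈ e.ssubsets, R e'

/-- composition of morphisms -/
def MVC : Prop :=
  (∀ (ι ι' : Type) [Fintype ι] [DecidableEq ι] [Fintype ι'] [DecidableEq ι']
    (φ : ι → MvPolynomial ι' ℝ) (z : ι' → ℤ), (∀ a, IsZ (φ a)) →
      ∀ F, eval (cz z) (aeval φ F) = eval (cz (pz φ z)) F) ∧
  (∀ (ι Γ : Type) [Fintype ι] [DecidableEq ι] [Fintype Γ] [DecidableEq Γ] (S S' : SR ι Γ),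
    S.Sa S' → (∀ a ∈ S.V, S'.M.sc a = S.M.sc a) → ∀ h, Nx S h 0 S' h) ∧
  ∀ (ι ι' ι'' Γ : Type) [Fintype ι] [DecidableEq ι] [Fintype ι'] [DecidableEq ι'] [Fintype ι'']
    [DecidableEq ι''] [Fintype Γ] [DecidableEq Γ] (S : SR ι Γ) (S' : SR ι' Γ) (S'' : SR ι'' Γ)
    (L L' L'' : ℝ), L + L' ≤ L'' →
    (∀ φ j φ' j', Mv S' S φ j L → Mv S'' S' φ' j' L' →
      Mv S'' S (fun a => aeval φ' (φ a)) (j' ∘ j) L'' ∧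
      ∀ z, pz (fun a => aeval φ' (φ a)) z = pz φ (pz φ' z)) ∧
    ∀ h h' h'', Nx S h L S' h' → Nx S' h' L' S'' h'' → Nx S h L'' S'' h''

/-- the levels -/
def LEV : Prop := ∀ (ι Γ : Type) [Fintype ι] [DecidableEq ι] [Fintype Γ] [DecidableEq Γ]
  (S : SR ι Γ), S.Ok → (∀ e, S.M.G.Bk (S.bl e)) ∧
    (∀ t, S.M.G.Bk (S.lv t) ∧ S.M.G.Bk (S.lo t) ∧ S.lo t ⊆ S.M.U ∧ S.lo t ⊆ S.lo (t + 1) ∧
      S.lo (t + 1) \ S.lo t = S.lv t ∧ (∀ a ∈ S.lo (t + 1), (S.M.p a).vars ⊆ S.lo t) ∧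
      (S.M.rs (S.lo t)).Ok ∧
      ∀ a ∈ S.lo t, (S.M.sc a).vars ⊆ S.lo t ∧ Ty S.M.col (S.M.col a) (S.M.sc a) ∧
        (S.M.dir univ).sc a = kp S.M.col (S.M.col a) (S.M.sc a)) ∧
    S.lo 0 = S.V ∧ S.lo 1 = S.V ∧ (∀ t, Fintype.card Γ < t → S.lo t = S.M.U) ∧
    S.nw.card ≤ S.pot ∧
    ∀ (e : Finset Γ) (F : MvPolynomial ι ℝ), e.Nonempty → F.vars ⊆ S.lo e.card → Ty S.M.col e F →
      S.M.G.Dl (S.W0 * (Fintype.card Γ + 1) ^ e.card) F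

/-- regularity passes along embeddings -/
def THE : Prop := ∀ (ι ι' Γ : Type) [Fintype ι] [DecidableEq ι] [Fintype ι'] [DecidableEq ι']
  [Fintype Γ] [DecidableEq Γ] (M' : MT ι' Γ) (M : MT ι Γ) (j : ι' → ι) (k k' : ℕ)
  (Λ' Λ'' Λ d d' : ℝ), M'.Ok → M.Ok → 0 < Λ' → 0 < Λ'' → Λ'' * Λ' ≤ Λ → k' ≤ k → d ≤ d' →
    Emb M' M j id Λ' → M.TH k Λ d → M'.TH k' Λ'' d' ∧
      (Λ' ≤ Λ → M'.nm ≤ 1 + d ∧ 1 - 2 ^ Fintype.card Γ * d ≤ M'.nm)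

/-- monotonicity of the invariants -/
def IMO : Prop := ∀ (ι Γ : Type) [Fintype ι] [DecidableEq ι] [Fintype Γ] [DecidableEq Γ]
  (S : SR ι Γ) (k : ℕ) (h h' : (ι → ℤ) → ℝ) (θ θ' : ℕ → ℝ) (W W' d γ γ' b b' : ℝ),
    S.Inv k h θ W d γ b → (∀ z, h z ≤ h' z ∧ h' z ≤ 1) → (∀ t, θ t ≤ θ' t) → W' ≤ W → γ ≤ γ' →
    0 ≤ b' → b' ≤ b → S.Inv k h' θ' W' d γ' b'

/-- theta series -/
def THA : Prop :=
  (∀ (ι Γ : Type) [Fintype ι] [DecidableEq ι] [Fintype Γ] [DecidableEq Γ] (M : MT ι Γ)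
    (V : Finset ι), M.A * M.B = 1 → (∀ a, 0 < M.sg a) → M.G.Bk V → 1 ≤ te M V ∧
    (∀ V', M.G.Bk V' → te M (V ∪ V') ≤ te M V * te M V') ∧
    (∀ l : ι → ℝ, (∀ a, 1 ≤ l a) → te (M.wid l) V ≤ (∏ a ∈ V, l a) * te M V) ∧
    (∀ l : ℝ, 0 < l → l ≤ 1 → te (M.wid fun _ => l) V ≤ te M V) ∧
    ∀ x : ι → ℝ, ∑' z : Lat V, Real.exp (-π * ∑ a ∈ V,
      (M.sg a * (∑ b, M.A a b * (z.1 b : ℝ) + x a)) ^ 2) ≤ te M V * M.G.mn M.sg V) ∧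
  ∀ (ι Γ ι' Γ' : Type) [Fintype ι] [DecidableEq ι] [Fintype Γ] [DecidableEq Γ] [Fintype ι']
    [DecidableEq ι'] [Fintype Γ'] [DecidableEq Γ'] (M : MT ι Γ) (M' : MT ι' Γ') (V : Finset ι)
    (j : ι → ι'), Set.InjOn j V → (∀ a ∈ V, M'.sg (j a) = M.sg a) →
    (∀ a ∈ V, ∀ b ∈ V, M'.A (j a) (j b) = M.A a b ∧ M'.B (j a) (j b) = M.B a b) →
      te M' (V.image j) = te M V

/-- the tail -/
def TAILS : Prop := ∀ (ι Γ : Type) [Fintype ι] [DecidableEq ι] [Fintype Γ] [DecidableEq Γ]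
  (S : SR ι Γ) (k : ℕ) (θ : ℕ → ℝ) (W d Z : ℝ), S.Inv0 k θ W d → 0 ≤ W → 0 ≤ Z →
    S.M.En (fun z => if Z ≤ sq S.M z then (1 : ℝ) else 0) ≤
      Real.exp (Fintype.card ι + 1 + ∑ t ∈ range (Fintype.card Γ + 1), θ t - Z)

/-! ### Rows: moves -/

def RECO : Prop := ∀ (ι Γ : Type) [Fintype ι] [DecidableEq ι] [Fintype Γ] [DecidableEq Γ]
  (S : SR ι Γ) (k : ℕ) (h : (ι → ℤ) → ℝ) (θ : ℕ → ℝ) (W d γ b : ℝ) (e : Finset Γ)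
  (U U' : Matrix ι ι ℤ), S.Inv k h θ W d γ b → U * U' = 1 →
    (∀ a c, (U a c ≠ 0 ∨ U' a c ≠ 0) → a = c ∨ (a ∈ S.bl e ∧ c ∈ S.bl e)) →
    (∀ a, a ∉ S.bl e → U a a = 1 ∧ U' a a = 1) →
    ∃ (S' : SR ι Γ) (h' : (ι → ℤ) → ℝ), Nx S h 0 S' h' ∧ S'.Inv k h' θ W d γ b ∧ S.Sa S' ∧
      S'.σ = S.σ ∧ S'.M.B = U'.map (Int.cast : ℤ → ℝ) * S.M.B ∧
      (∀ a ∈ S.lo (e.card + 1), S'.M.p a = S.M.p a) ∧
      ∀ a ∈ S.lo e.card, (S'.M.dir univ).sc a = (S.M.dir univ).sc a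

def ROTO : Prop := ∀ (ι Γ : Type) [Fintype ι] [DecidableEq ι] [Fintype Γ] [DecidableEq Γ]
  (S : SR ι Γ) (k : ℕ) (h : (ι → ℤ) → ℝ) (θ : ℕ → ℝ) (W d γ b : ℝ) (j : ι),
    S.Inv k h θ W d γ b → j ∈ S.nw →
    ∃ S' : SR ι Γ, Nx S h 0 S' h ∧ S'.Inv k h θ W d γ b ∧ S.Sa S' ∧ S'.σ = S.σ ∧
      S'.Pv j (√(∑ a, S.M.B j a ^ 2) / S.σ (S.M.col j).card) ∧
      C (√(∑ a, S.M.B j a ^ 2)) * S'.M.p j = ∑ a, C (S.M.B j a) * S.M.p a ∧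
      ∀ a ∈ S.lo (S.M.col j).card, (S'.M.dir univ).sc a = (S.M.dir univ).sc a

/-- a pivot is not too narrow -/
def BETA : Prop := ∀ (ι Γ : Type) [Fintype ι] [DecidableEq ι] [Fintype Γ] [DecidableEq Γ]
  (S : SR ι Γ) (j : ι) (β : ℝ), S.Ok → S.Pv j β → β⁻¹ ≤ te S.M (S.lv (S.M.col j).card)

/-- from a dual vector to a pivot -/
def PIV : Prop := ∀ (ι Γ : Type) [Fintype ι] [DecidableEq ι] [Fintype Γ] [DecidableEq Γ]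
  (S : SR ι Γ) (k : ℕ) (h : (ι → ℤ) → ℝ) (θ : ℕ → ℝ) (W d γ b o H : ℝ) (e : Finset Γ) (v : ι → ℤ)
  (n : ℕ), S.Inv k h θ W d γ b → v ≠ 0 → v ∈ Lat (S.bl e) → 1 ≤ n →
    ∑ a, ((∑ c, (v c : ℝ) * S.M.B c a) / S.σ e.card) ^ 2 ≤ Real.exp (2 * o) →
    S.Rl e (C (n : ℝ) * ph S.M v) H →
    ∃ (S' : SR ι Γ) (h' : (ι → ℤ) → ℝ) (j : ι) (β : ℝ) (n' : ℕ), Nx S h 0 S' h' ∧
      S'.Inv k h' θ W d γ b ∧ S.Sa S' ∧ S.M.col j = e ∧ β ≤ Real.exp o ∧ 1 ≤ n' ∧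
      (n' : ℝ) ≤ n * Real.exp (o + θ e.card) ∧ S'.PR j β n' H

/-- classes modulo `n` of the lower variables that have one fixed colour of `j` -/
def DIL : Prop := ∀ (ι Γ : Type) [Fintype ι] [DecidableEq ι] [Fintype Γ] [DecidableEq Γ]
  (S : SR ι Γ) (k : ℕ) (h : (ι → ℤ) → ℝ) (θ : ℕ → ℝ) (W d γ b β H l : ℝ) (j : ι) (n : ℕ),
    S.Inv k h θ W d γ b → 1 ≤ n → (n : ℝ) ≤ Real.exp l → S.PR j β n H →
    ∃ (S' : SR ι Γ) (h' : (ι → ℤ) → ℝ), Nx S h l S' h' ∧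
      S'.Inv k h' (lw θ (S.M.col j).card (S.nw.card * l)) (W - l) d γ b ∧ S.Sa S' ∧ S'.PR j β 1 H

/-- a narrow cell of the lower variables -/
def SHR : Prop := ∀ (ι Γ : Type) [Fintype ι] [DecidableEq ι] [Fintype Γ] [DecidableEq Γ]
  (S : SR ι Γ) (k : ℕ) (h : (ι → ℤ) → ℝ) (θ : ℕ → ℝ) (W d γ b β H l : ℝ) (j : ι),
    S.Inv k h θ W d γ b → 0 ≤ l → S.PR j β 1 H →
    ∃ S' : SR ι Γ, Nx S h l S' h ∧
      S'.Inv k h (lw θ (S.M.col j).card (S.nw.card * l)) (W - l) d γ b ∧ S.Sa S' ∧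
      S'.PR j β 1 (H * Real.exp (-l))

/-- new windows of width `w` on the forms `R i` -/
def ADD : Prop := ∀ (ι κ Γ : Type) [Fintype ι] [DecidableEq ι] [Fintype κ] [DecidableEq κ]
  [Fintype Γ] [DecidableEq Γ] (S : SR ι Γ) (k : ℕ) (h : (ι → ℤ) → ℝ) (θ : ℕ → ℝ)
  (W d γ b w l : ℝ) (t : ℕ) (ty : κ → Finset Γ) (R : κ → MvPolynomial ι ℝ),
    S.Inv k h θ W d γ b → 0 < w → w ≤ 1 → 2 ≤ w * Real.exp l →
    (∀ i, (ty i).Nonempty ∧ (ty i).card < t ∧ (R i).vars ⊆ S.M.U ∧ Ty S.M.col (ty i) (R i)) →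
    ∃ (S' : SR (ι ⊕ κ) Γ) (ζ : κ → ℝ), Mv S' S (fun a => X (Sum.inl a)) Sum.inl 0 ∧
      S'.Inv k (fun z => if ∀ i, |eval (cz z) (S'.M.sc (Sum.inr i))| ≤ 1 then h (z ∘ Sum.inl) else 0)
        (lw θ t (Fintype.card κ * l)) W d (γ + Fintype.card κ) (b / 2 ^ Fintype.card κ) ∧
      S'.M.U = S.M.U.disjSum univ ∧ S'.M.col = Sum.elim S.M.col ty ∧ S'.σ = S.σ ∧
      (∀ a c, S'.M.A (Sum.inl a) (Sum.inl c) = S.M.A a c) ∧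
      (∀ a i, S'.M.A (Sum.inl a) (Sum.inr i) = 0) ∧
      (∀ a, S'.M.p (Sum.inl a) = rename Sum.inl (S.M.p a) ∧
        S'.M.sc (Sum.inl a) = rename Sum.inl (S.M.sc a)) ∧
      ∀ i, S'.M.sc (Sum.inr i) = C w⁻¹ * (X (Sum.inr i) - rename Sum.inl (R i) - C (ζ i))

/-- subtract the small form `F (chart)` from the scaled chart of `j` -/
def PERT : Prop := ∀ r : ℕ, ∃ c : ℕ, ∀ (ι Γ : Type) [Fintype ι] [DecidableEq ι] [Fintype Γ]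
  [DecidableEq Γ] (S : SR ι Γ) (k : ℕ) (h : (ι → ℤ) → ℝ) (θ : ℕ → ℝ) (W d γ b Λ : ℝ) (j : ι)
  (F : MvPolynomial ι ℝ), Fintype.card Γ ≤ r → S.Inv k h θ W d γ b → 0 ≤ W → 1 ≤ Λ →
    (Fintype.card ι : ℝ) ≤ Real.exp Λ → (∀ t, 0 ≤ θ t ∧ θ t ≤ Real.exp Λ) → 0 ≤ γ →
    γ ≤ Real.exp Λ → j ∈ S.nw → F.vars ⊆ S.lo (S.M.col j).card → Ty S.M.col (S.M.col j) F →
    l1 F * Real.exp (c * Λ) ≤ 1 →
    ∃ S' : SR ι Γ, Nx S h 0 S' h ∧ S'.Inv k h θ W d (γ + 2) (b * Real.exp (-2)) ∧ S.Sa S' ∧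
      S'.σ = S.σ ∧ S'.M.A = S.M.A ∧
      S'.M.p j = S.M.p j - C (S.σ (S.M.col j).card)⁻¹ * aeval S.M.sc F

/-- slice along a pivot whose lower part is an integer form plus a constant -/
def SLI : Prop := ∀ (ι Γ : Type) [Fintype ι] [DecidableEq ι] [Fintype Γ] [DecidableEq Γ]
  (S : SR ι Γ) (k : ℕ) (h : (ι → ℤ) → ℝ) (θ : ℕ → ℝ) (W d γ b β o l y : ℝ) (j : ι)
  (I : MvPolynomial ι ℝ), S.Inv k h θ W d γ b → S.Pv j β → β ≤ Real.exp o → 0 ≤ l →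
    β⁻¹ ≤ Real.exp l → IsZ I → I.vars ⊆ S.lo (S.M.col j).card → Ty S.M.col (S.M.col j) I →
    C (β * S.σ (S.M.col j).card) * S.M.p j = I + C y →
    ∃ (S' : SR ι Γ) (h' : (ι → ℤ) → ℝ), Nx S h 0 S' h' ∧
      S'.Inv k h' (at1 θ (S.M.col j).card o) W d (γ + l + 2) b ∧
      S'.M.U = S.M.U.erase j ∧ S'.V = S.V ∧ S'.M.col = S.M.col

/-- demotion of a pivot with a relation -/
def DEM : Prop := ∀ r : ℕ, ∃ c : ℕ, ∀ (ι Γ : Type) [Fintype ι] [DecidableEq ι] [Fintype Γ]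
  [DecidableEq Γ] (S : SR ι Γ) (k : ℕ) (h : (ι → ℤ) → ℝ) (θ : ℕ → ℝ) (W d γ b β o x l P Λ : ℝ)
  (j : ι) (n : ℕ), Fintype.card Γ ≤ r → S.Inv k h θ W d γ b → (c : ℝ) ≤ Λ →
    (Fintype.card ι : ℝ) ≤ Real.exp Λ → (S.nw.card : ℝ) + 2 ^ r ≤ P →
    (∀ t, 0 ≤ θ t ∧ θ t + P * l ≤ Real.exp Λ) → 0 ≤ γ → γ + l ≤ Real.exp Λ → 0 ≤ x → 0 ≤ o →
    c * (x + θ (S.M.col j).card + Λ) ≤ l → l ≤ W → 1 ≤ n → (n : ℝ) ≤ Real.exp x →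
    β ≤ Real.exp o → S.PR j β n (Real.exp x) →
    ∃ (ι' : Type) (_ : Fintype ι') (_ : DecidableEq ι') (S' : SR ι' Γ) (h' : (ι' → ℤ) → ℝ),
      Nx S h l S' h' ∧ S'.Inv k h' (at1 (lw θ (S.M.col j).card (P * l)) (S.M.col j).card o)
        (W - l) d (γ + l) (b * Real.exp (-c)) ∧
      S'.pot < S.pot ∧ Fintype.card ι' ≤ Fintype.card ι + 2 ^ r

/-! ### Rows: from a failure of `TH` to a relation -/

/-- Poisson summation over the top variables -/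
def BIAS : Prop := ∀ (ι Γ : Type) [Fintype ι] [DecidableEq ι] [Fintype Γ] [DecidableEq Γ]
  (M : MT ι Γ) (W : Finset ι) (s d T : ℝ), M.Ok → W ⊆ M.U → M.G.Bk W →
    (∀ a ∈ M.U, (M.p a).vars ⊆ W) → te M (M.U \ W) ≤ Real.exp s → 0 < d → d ≤ 1 →
    1 + d < M.nm → (M.rs W).nm ≤ 1 + d / 2 → 8 * Real.exp (s + (M.U \ W).card - T) ≤ d →
    ∃ v ∈ Lat (M.U \ W), v ≠ 0 ∧ M.G.dq M.sg (M.U \ W) (cz v) ≤ T ∧
      d / (4 * Real.exp s) ≤ ‖(M.rs W).En fun z => ee (eval (cz z) (ph M v))‖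

/-- from the copies to one vertex -/
def EXT : Prop := ∀ (ι Γ : Type) [Fintype ι] [DecidableEq ι] [Fintype Γ] [DecidableEq Γ]
  (S : SR ι Γ) (k t n : ℕ) (Λ H : ℝ) (v : CV S.M.col (Fin (k + 1)) → ℤ)
  (x : CV S.M.col (Fin (k + 1))) (c : Γ), S.Ok → 1 ≤ Λ → (∀ y, v y ≠ 0 → y.1.1 ∈ S.lv t) →
    v x ≠ 0 → c ∈ S.M.col x.1.1 →
    (cw S.M (S.lo t) k Λ).IB (c, x.1.2 c) (C (n : ℝ) * kp (cw S.M (S.lo t) k Λ).col {(c, x.1.2 c)}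
      (ph (cw S.M (S.lo t) k Λ) v)) H →
    ∃ u ∈ Lat (S.bl (S.M.col x.1.1)), u ≠ 0 ∧
      S.Rl (S.M.col x.1.1) (C (n : ℝ) * ph S.M u) (Λ ^ Fintype.card Γ * H) ∧
      ∑ a, ((∑ b, (u b : ℝ) * S.M.B b a) / S.σ t) ^ 2 ≤ Λ ^ 2 * (cw S.M (S.lo t) k Λ).G.dq
        (cw S.M (S.lo t) k Λ).sg (univ.filter fun y => y.1.1 ∈ S.lv t) (cz v)

def SPO : Prop := ∀ r k2 : ℕ, ∃ k1 c : ℕ, ∀ (ι Γ : Type) [Fintype ι] [DecidableEq ι] [Fintype Γ]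
  [DecidableEq Γ] (S : SR ι Γ) (t : ℕ) (θ L1 L2 P Λ : ℝ), Fintype.card Γ ≤ r → S.Ok →
    te S.M (S.lv t) ≤ Real.exp θ → (S.nw.card : ℝ) ≤ P → (c : ℝ) ≤ Λ →
    (Fintype.card ι : ℝ) ≤ Real.exp Λ → 0 ≤ θ → 1 ≤ L2 → 1 ≤ P → P * L2 + θ ≤ Real.exp Λ →
    c * (P * L2 + θ + Λ) ≤ L1 → (S.M.rs (S.lo t)).TH k1 (Real.exp L1) (Real.exp (-L1)) →
    ¬ (S.M.rs (S.lo (t + 1))).TH k2 (Real.exp L2) (Real.exp (-L2)) →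
    ∃ (e : Finset Γ) (u : ι → ℤ) (n : ℕ), e.card = t ∧ u ≠ 0 ∧ u ∈ Lat (S.bl e) ∧ 1 ≤ n ∧
      (n : ℝ) ≤ Real.exp L1 ∧
      ∑ a, ((∑ b, (u b : ℝ) * S.M.B b a) / S.σ e.card) ^ 2 ≤ Real.exp (2 * (L2 + Λ)) ∧
      S.Rl e (C (n : ℝ) * ph S.M u) (Real.exp L1)

/-- one round -/
def RND : Prop := ∀ r k2 : ℕ, ∃ k1 c : ℕ, ∀ (ι Γ : Type) [Fintype ι] [DecidableEq ι] [Fintype Γ]
  [DecidableEq Γ] (S : SR ι Γ) (k t : ℕ) (h : (ι → ℤ) → ℝ) (θ : ℕ → ℝ) (W d γ b L2 l P Λ : ℝ),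
    Fintype.card Γ ≤ r → S.Inv k h θ W d γ b → (c : ℝ) ≤ Λ → (Fintype.card ι : ℝ) ≤ Real.exp Λ →
    (S.nw.card : ℝ) + 2 ^ r ≤ P → (∀ s, 0 ≤ θ s ∧ θ s + P * l ≤ Real.exp Λ) → 0 ≤ γ →
    γ + l ≤ Real.exp Λ → 1 ≤ L2 → c * (P * L2 + θ t + Λ) ≤ l → l ≤ W →
    (S.M.rs (S.lo t)).TH k1 (Real.exp l) (Real.exp (-l)) →
    ¬ (S.M.rs (S.lo (t + 1))).TH k2 (Real.exp L2) (Real.exp (-L2)) →
    ∃ (ι' : Type) (_ : Fintype ι') (_ : DecidableEq ι') (S' : SR ι' Γ) (h' : (ι' → ℤ) → ℝ),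
      Nx S h l S' h' ∧ S'.Inv k h' (at1 (lw θ t (P * l)) t (L2 + Λ)) (W - l) d (γ + l)
        (b * Real.exp (-c)) ∧ S'.pot < S.pot ∧ Fintype.card ι' ≤ Fintype.card ι + 2 ^ r

/-- regularisation -/
def SREG : Prop := ∀ r k : ℕ, ∃ k0 c : ℕ, ∀ (ι Γ : Type) [Fintype ι] [DecidableEq ι] [Fintype Γ]
  [DecidableEq Γ] (S : SR ι Γ) (h : (ι → ℤ) → ℝ) (Y Z W b : ℝ), Fintype.card Γ ≤ r → (c : ℝ) ≤ Y →
    Y ≤ Z → (Fintype.card ι : ℝ) ≤ Real.exp Y → (S.pot : ℝ) ≤ Y → Z ^ c ≤ W →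
    S.Inv k0 h (fun _ => Y) W (Real.exp (-W)) Y b →
    ∃ (ι' : Type) (_ : Fintype ι') (_ : DecidableEq ι') (S' : SR ι' Γ) (h' : (ι' → ℤ) → ℝ),
      Nx S h (Z ^ c) S' h' ∧ S'.Ok ∧ (Fintype.card ι' : ℝ) ≤ Fintype.card ι + c * Y ∧
      S'.M.TH k (Real.exp Z) (Real.exp (-Z)) ∧ (∀ z, 0 ≤ h' z ∧ h' z ≤ 1) ∧
      0 < S'.M.En fun z => h' z - b * Real.exp (-(c * Y))

open Classical in
/-- new coordinates for the forms `Ψ i` over a regular tower -/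
def SADD : Prop := ∀ r k : ℕ, ∃ k0 c : ℕ, ∀ (ι Γ ρ : Type) [Fintype ι] [DecidableEq ι] [Fintype Γ]
  [DecidableEq Γ] [Fintype ρ] (M : MT ι Γ) (ty : ρ → Finset Γ) (Ψ : ρ → MvPolynomial ι ℝ)
  (h : (ι → ℤ) → ℝ) (Y W W' : ℝ), M.Ok → M.U.Nonempty → Fintype.card Γ ≤ r → (c : ℝ) ≤ Y →
    (Fintype.card ι : ℝ) ≤ Real.exp Y → (Fintype.card ρ : ℝ) ≤ Y → 1 ≤ W' → (Y + W') ^ c ≤ W →
    (∀ i, (ty i).Nonempty ∧ (Ψ i).vars ⊆ M.U ∧ Ty M.col (ty i) (Ψ i)) → (∀ z, 0 ≤ h z ∧ h z ≤ 1) →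
    Real.exp (-Y) ≤ M.En h → M.TH k0 (Real.exp W) (Real.exp (-W)) →
    ∃ (ι' : Type) (_ : Fintype ι') (_ : DecidableEq ι') (S' : SR ι' Γ) (φ : ι → MvPolynomial ι' ℝ)
      (j : ι → ι') (ζ : ρ → MvPolynomial ι' ℝ) (s : ρ → ℝ), S'.M.Ok ∧
      (Fintype.card ι' : ℝ) ≤ Fintype.card ι + Y ^ c ∧ Mv S' (SR.of M) φ j ((Y + W') ^ c) ∧
      S'.M.TH k (Real.exp W') (Real.exp (-W')) ∧
      (∀ i, IsZ (ζ i) ∧ (ζ i).vars ⊆ S'.M.U ∧ Ty S'.M.col (ty i) (ζ i)) ∧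
      Real.exp (-Y ^ c) ≤ S'.M.En fun z =>
        if ∀ i, |eval (cz z) (aeval φ (Ψ i) - ζ i) - s i| ≤ 1 / 100 then h (pz φ z) else 0

end

end Vale.Agent.P057T.Sr
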